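import Vale.Agent.P028.MathlibUsed
import Vale.Agent.N028.Move

/-!
# The measure of a finite union of arcs inside a union of dyadic cells
-/

namespace Vale.Agent.N028Y

open Finset MeasureTheory Vale.P028 Vale.P028.CR Vale.Agent.N028

/-- the weight of a set of moduli -/
noncomputable def wt (ψ : ℕ → ℝ) (S : Finset ℕ) : ℝ := ∑ q ∈ S, ((q.totient : ℝ) / q) * ψ q

/-- the union of the arcs of a set of moduli -/
def US (γ : ℝ) (ψ : ℕ → ℝ) (S : Finset ℕ) : Set ℝ :=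
  {x | ∃ q ∈ S, ∃ a : ℤ, |(q : ℝ) * x - a - γ| < ψ q}

open Classical in
theorem level_fin {ψ : ℕ → ℝ} {S : Finset ℕ} (hS : ∀ q ∈ S, 0 < q ∧ 0 ≤ ψ q ∧ ψ q ≤ 1 / 2)
    {n : ℕ → ℝ} {A b : ℝ} (hA : 0 ≤ A) (hsum : ∀ K, ∑ k ∈ range K, n k / 2 ^ k ≤ b)
    (h : 2 * (A * b) < wt ψ S) : ∃ k, ∃ T ⊆ S, (∀ q ∈ T, (q : ℝ) ≤ ψ q * 2 ^ k) ∧
      A * n k < ∑ q ∈ T, (q.totient : ℝ) := by
  by_contra hcon
  push Not at hcon
  have hlev : ∀ q ∈ S, ∃ k : ℕ, 0 < ψ q → (q : ℝ) ≤ ψ q * 2 ^ k ∧ ψ q / q ≤ 2 / 2 ^ k := by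
    intro q hq
    obtain ⟨h1, h2, h3⟩ := hS q hq
    have hqR : (1 : ℝ) ≤ q := by exact_mod_cast h1
    rcases h2.eq_or_lt with h0 | h0
    · exact ⟨0, fun h => absurd h0 h.ne⟩
    have hex : ∃ k : ℕ, (q : ℝ) ≤ ψ q * 2 ^ k := by
      obtain ⟨k, hk⟩ := pow_unbounded_of_one_lt ((q : ℝ) / ψ q) (by norm_num : (1 : ℝ) < 2)
      rw [div_lt_iff₀ h0] at hk
      exact ⟨k, by linarith only [hk]⟩
    refine ⟨Nat.find hex, fun _ => ⟨Nat.find_spec hex, ?_⟩⟩
    rw [div_le_div_iff₀ (by linarith only [hqR]) (by positivity)]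
    rcases h4 : Nat.find hex with _ | k
    · linarith only [h3, hqR]
    · have := not_le.1 (Nat.find_min hex (m := k) (by omega))
      rw [pow_succ]
      linarith only [this]
  choose! kk hk using hlev
  have h1 : ∀ q ∈ S, ((q.totient : ℝ) / q) * ψ q ≤ ∑ k ∈ range (S.sup kk + 1),
      if (q : ℝ) ≤ ψ q * 2 ^ k then 2 / 2 ^ k * (q.totient : ℝ) else 0 := by
    intro q hq
    rcases (hS q hq).2.1.eq_or_lt with h0 | h0
    · rw [← h0, mul_zero]
      exact sum_nonneg fun k _ => by positivity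
    refine le_trans ?_ (single_le_sum (fun k _ => by positivity)
      (mem_range.2 (Nat.lt_succ_of_le (le_sup hq))))
    rw [if_pos (hk q hq h0).1, div_mul_comm]
    exact mul_le_mul_of_nonneg_right (hk q hq h0).2 (Nat.cast_nonneg _)
  refine h.not_ge ((sum_le_sum h1).trans ?_)
  rw [sum_comm]
  refine le_trans (sum_le_sum (g := fun k => 2 / 2 ^ k * (A * n k)) fun k _ => ?_)
    (le_trans (le_of_eq ?_)
    (mul_le_mul_of_nonneg_left (mul_le_mul_of_nonneg_left (hsum (S.sup kk + 1)) hA) zero_le_two))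
  · rw [← sum_filter, ← mul_sum]
    exact mul_le_mul_of_nonneg_left (hcon k _ (filter_subset _ _) fun q hq => (mem_filter.1 hq).2)
      (by positivity)
  · rw [mul_sum, mul_sum]
    exact sum_congr rfl fun k _ => by ring

open Classical in
theorem loc {c A : ℝ} (hc : 0 < c) (hA : 0 < A) {Q : ℕ → ℕ} (hUP : UP c A Q) {m : ℕ}
    {J : Finset ℕ} (hJ : J ⊆ range (2 ^ m)) {κ e : ℝ} (hJκ : κ ≤ (J.card : ℝ) / 2 ^ m)
    (he0 : 0 < e) (he1 : e ≤ κ / 12) (he2 : e ≤ κ ^ 2 / (7 * c)) :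
    ∃ N : ℕ, ∀ (γ : ℝ) (ψ : ℕ → ℝ) (S : Finset ℕ), (∀ q ∈ S, N ≤ q ∧ 0 ≤ ψ q ∧ ψ q ≤ 1 / 2) →
      ∀ β : ℝ, 0 < β → β ≤ e → volume (US γ ψ S ∩ EJ m J) ≤ ENNReal.ofReal β →
        wt ψ S ≤ 2 * (A / e * (4 * β)) := by
  have hκ0 : 0 < κ := by linarith only [he0, he1]
  have h2m : (0 : ℝ) < 2 ^ m := by positivity
  obtain ⟨Q₂, hQ₂⟩ := exists_nat_ge (3 * (2 ^ m + 1) / e)
  refine ⟨4 * 2 ^ m + Q m + Q₂ + 1, fun g ψ S hS β hβ hβe hBe => ?_⟩
  by_contra hw
  set B : Set ℝ := US g ψ S ∩ ⋃ j ∈ J, cell m j with hB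
  replace hBe : volume B ≤ ENNReal.ofReal β := hBe
  have hn1 : ∀ k, 0 < nC B k + β := fun k => by linarith only [nC_nonneg B k, hβ]
  obtain ⟨k, T, hTS, hT, hbig⟩ := level_fin (S := S)
    (fun q hq => ⟨by have := (hS q hq).1; omega, (hS q hq).2⟩) (n := fun k => nC B k + β)
    (A := A / e) (b := 4 * β) (by positivity) (by
      intro K'
      have h1 : ∑ k ∈ range K', (nC B k + β) / 2 ^ k =
          ∑ k ∈ range K', nC B k / 2 ^ k + β * ∑ k ∈ range K', (1 / 2 : ℝ) ^ k := by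
        rw [mul_sum, ← sum_add_distrib]
        refine sum_congr rfl fun k _ => ?_
        rw [one_div_pow, add_div, mul_one_div]
      have h2 := sum_nC_le hβ.le hBe K'
      have h3 := sum_geom_le (r := 1 / 2) (by norm_num) (by norm_num) K'
      have h4 : (1 - (1 : ℝ) / 2)⁻¹ = 2 := by norm_num
      rw [h4] at h3
      rw [h1]
      linarith only [h2, mul_le_mul_of_nonneg_left h3 hβ.le]) (not_le.1 hw)
  have hsumpos : 0 < ∑ q ∈ T, (q.totient : ℝ) :=
    lt_of_le_of_lt (mul_nonneg (by positivity) (hn1 k).le) hbig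
  obtain ⟨q₀, hq₀, -⟩ := exists_ne_zero_of_sum_ne_zero hsumpos.ne'
  have hTq : ∀ q ∈ T, 4 * 2 ^ m ≤ q ∧ 0 < q ∧ Q m ≤ q ∧ ψ q ≤ 1 / 2 ∧ Q₂ ≤ q := by
    intro q hq
    have h1 := (hS q (hTS hq)).1
    exact ⟨by omega, by omega, by omega, (hS q (hTS hq)).2.2, by omega⟩
  have hmk : m ≤ k := by
    have h1 := hT q₀ hq₀
    obtain ⟨h2, -, -, h3, -⟩ := hTq q₀ hq₀
    have h4 : 4 * (2 : ℝ) ^ m ≤ q₀ := by exact_mod_cast h2
    have h5 : (0 : ℝ) < 2 ^ k := by positivity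
    have h6 : (2 : ℝ) ^ m ≤ 2 ^ k := by nlinarith only [h1, h3, h4, h5, h2m]
    exact (pow_le_pow_iff_right₀ (by norm_num : (1 : ℝ) < 2)).1 h6
  have hcentre : ∀ q ∈ T, ∀ al : ℤ, (∃ j ∈ J, ((al : ℝ) + g) / q ∈ cell m j) →
      ((al : ℝ) + g) / q ∈ RC B k := by
    rintro q hq al ⟨j, hj, hz⟩
    have h2 := hT q hq
    have hqR : (0 : ℝ) < q := by exact_mod_cast (hTq q hq).2.1
    have h5 : (0 : ℝ) < 2 ^ k := by positivity
    refine mem_RC hJ hmk (t := ψ q / q) ?_ ?_ hj hz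
    · rw [div_le_div_iff₀ h5 hqR]
      linarith only [h2]
    · rintro y ⟨h6, h7⟩
      refine ⟨q, hTS hq, al, ?_⟩
      rw [← sub_div, div_lt_iff₀ hqR] at h6
      rw [← add_div, lt_div_iff₀ hqR] at h7
      rw [abs_lt]
      constructor
      · linarith only [h6]
      · linarith only [h7]
  have hfirst1 : ∀ q ∈ T, κ / 2 ≤ volume.real (GS g q (1 / 2)
      (fun al => True ∧ ∃ j ∈ J, ((al : ℝ) + g) / q ∈ cell m j) ∩ Set.Ioc 0 1) := by
    intro q hq
    have h1 := first_moment (γ := g) (q := q) (x := 1 / 2) (by norm_num) le_rfl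
      (P := fun _ => True) hJ (hTq q hq).1 (f := 1) (w := 1) zero_le_one zero_le_one (by
        intro a b _
        have e0 : ∀ i1 : DecidablePred (fun _ : ℤ => True),
            @filter ℤ (fun _ : ℤ => True) i1 (Ioc a b) = Ioc a b := by
          intro i1
          ext z
          exact ⟨fun h => ((@mem_filter ℤ _ i1 _ _).1 h).1,
            fun h => (@mem_filter ℤ _ i1 _ _).2 ⟨h, trivial⟩⟩
        rw [e0, one_mul, one_mul]
        exact card_Ioc_ge a b)
    rw [one_mul, one_mul] at h1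
    linarith only [h1, hJκ]
  set lam : ℝ := e / (nC B k + β) with hlam
  have hlam0 : 0 < lam := div_pos he0 (hn1 k)
  have hlamn : lam * (nC B k + β) = e := div_mul_cancel₀ e (hn1 k).ne'
  have hlamn' : lam * nC B k ≤ e := by nlinarith only [hlamn, hlam0, hβ]
  have hthick : ∀ l : ℝ, 0 ≤ l → volume (Metric.thickening l (RC B k)) ≤
      ENNReal.ofReal (e + 2 * l * nC B k) := by
    intro l hl
    refine (volume_thickening_RC B hl k).trans (ENNReal.ofReal_le_ofReal ?_)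
    have := card_div_le hβ.le hBe k
    linarith only [this, hβe]
  have hlamq : ∀ q ∈ T, lam * q ≤ 1 / 2 := by
    intro q hq
    by_contra hcon
    have h0 := GS_subset_thickening (γ := g) (hTq q hq).2.1 (not_le.1 hcon).le
      (P := fun al => True ∧ ∃ j ∈ J, ((al : ℝ) + g) / q ∈ cell m j) (Y := RC B k)
      (fun al hal => hcentre q hq al hal.2)
    have h1 : volume.real (GS g q (1 / 2)
        (fun al => True ∧ ∃ j ∈ J, ((al : ℝ) + g) / q ∈ cell m j) ∩ Set.Ioc 0 1) ≤ 3 * e := by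
      refine ENNReal.toReal_le_of_le_ofReal (by positivity) ?_
      refine (measure_mono (Set.inter_subset_left.trans h0)).trans
        ((hthick lam hlam0.le).trans (ENNReal.ofReal_le_ofReal ?_))
      linarith only [hlamn']
    have h2 := hfirst1 q hq
    linarith only [h1, h2, he1, hκ0]
  have hlamBd : (2 ^ m + 1) * (6 * lam) ≤ e := by
    have h1 := hlamq q₀ hq₀
    have h2 : (Q₂ : ℝ) ≤ q₀ := by exact_mod_cast (hTq q₀ hq₀).2.2.2.2
    have h3 : 3 * (2 ^ m + 1) ≤ q₀ * e := by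
      rw [div_le_iff₀ he0] at hQ₂
      nlinarith only [hQ₂, h2, he0]
    have h4 : 3 * (2 ^ m + 1) * (2 * lam) ≤ q₀ * e * (2 * lam) :=
      mul_le_mul_of_nonneg_right h3 (by positivity)
    nlinarith only [h4, h1, he0]
  have key := hUP g m J hJ lam T hlam0 (fun q hq => ⟨(hTq q hq).2.2.1, hlamq q hq⟩) (by
    have h1 : lam * (A / e * (nC B k + β)) < lam * ∑ q ∈ T, (q.totient : ℝ) :=
      mul_lt_mul_of_pos_left hbig hlam0
    have h2 : lam * (A / e * (nC B k + β)) = A := by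
      calc lam * (A / e * (nC B k + β)) = A / e * (lam * (nC B k + β)) := by ring
        _ = A := by rw [hlamn]; exact div_mul_cancel₀ A he0.ne'
    rwa [h2] at h1) (RC B k ∪ Bd m lam) (by
    intro q hq al hal
    rcases thickening_EJ hJ hal with h | h
    · exact Or.inl (hcentre q hq al (mem_EJ.1 h))
    · exact Or.inr h)
  rw [Metric.thickening_union] at key
  have h1 : volume (Metric.thickening (2 * lam) (RC B k) ∪ Metric.thickening (2 * lam) (Bd m lam)) ≤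
      ENNReal.ofReal (6 * e) := by
    refine (measure_union_le _ _).trans ?_
    refine (add_le_add (hthick (2 * lam) (by positivity)) (volume_thickening_Bd m lam)).trans ?_
    rw [← ENNReal.ofReal_add (by
      have := mul_nonneg hlam0.le (nC_nonneg B k)
      linarith only [this, he0]) (by positivity)]
    apply ENNReal.ofReal_le_ofReal
    linarith only [hlamn', hlamBd]
  have h2 := (ENNReal.ofReal_le_ofReal_iff (by positivity)).1 (key.trans h1)
  have h3 : κ ^ 2 / c ≤ ((J.card : ℝ) / 2 ^ m) ^ 2 / c :=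
    div_le_div_of_nonneg_right (pow_le_pow_left₀ hκ0.le hJκ 2) hc.le
  have h4 : κ ^ 2 / (7 * c) = κ ^ 2 / c / 7 := by field_simp
  have h5 : 0 < κ ^ 2 / c := by positivity
  linarith only [h2, h3, h4, h5, he2]

end Vale.Agent.N028Y
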