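import Vale.Agent.P028.MathlibUsed
import Vale.Agent.N028Y.Local
import Vale.Agent.N028.Top

/-!
# Quantitative forms: finite unions of arcs and the counting function
-/

namespace Vale.Agent.N028Y

open Finset MeasureTheory Filter Vale.P028 Vale.P028.CR Vale.Agent.N028

variable {γ : ℝ} {ψ : ℕ → ℝ} {S : Finset ℕ}

theorem isOpen_US (γ : ℝ) (ψ : ℕ → ℝ) (S : Finset ℕ) : IsOpen (US γ ψ S) := by
  have e : US γ ψ S = ⋃ q ∈ S, ⋃ a : ℤ, {x : ℝ | |(q : ℝ) * x - a - γ| < ψ q} := by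
    ext x
    simp [US]
  rw [e]
  exact isOpen_biUnion fun q _ => isOpen_iUnion fun a => isOpen_lt (by fun_prop) continuous_const

theorem fin_of {K : Set ℝ} (h : K ⊆ Set.Icc 0 1) : volume K ≠ ⊤ :=
  ((measure_mono h).trans_lt (by simp)).ne

theorem wt_nonneg (h : ∀ q ∈ S, 0 ≤ ψ q) : 0 ≤ wt ψ S :=
  sum_nonneg fun q hq => mul_nonneg (by positivity) (h q hq)

theorem term_le {q : ℕ} (h : 0 ≤ ψ q) : ((q.totient : ℝ) / q) * ψ q ≤ ψ q :=
  mul_le_of_le_one_left h (div_le_one_of_le₀ (by exact_mod_cast Nat.totient_le q) (by positivity))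

theorem EJ_sub {m : ℕ} {J : Finset ℕ} (hJ : J ⊆ range (2 ^ m)) : EJ m J ⊆ Set.Icc 0 1 := by
  intro x hx
  obtain ⟨j, hj, h1, h2⟩ := mem_EJ.1 hx
  have h3 : (j : ℝ) + 1 ≤ 2 ^ m := by exact_mod_cast mem_range.1 (hJ hj)
  exact ⟨le_trans (by positivity) h1, h2.le.trans (div_le_one_of_le₀ h3 (by positivity))⟩

/-- unions of dyadic cells -/
theorem cells : ∃ c : ℝ, 0 < c ∧ ∀ (m : ℕ) (J : Finset ℕ), J ⊆ range (2 ^ m) → ∀ κ : ℝ, 0 ≤ κ →
    κ ≤ 1 → κ ≤ (J.card : ℝ) / 2 ^ m → ∃ N : ℕ, ∀ (γ : ℝ) (ψ : ℕ → ℝ) (S : Finset ℕ),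
      (∀ q ∈ S, N ≤ q ∧ 0 ≤ ψ q ∧ ψ q ≤ 1 / 2) →
      c * κ ^ 2 * min 1 (wt ψ S) ≤ volume.real (US γ ψ S ∩ EJ m J) := by
  obtain ⟨c, A, hc, hA, Q, hUP⟩ := exists_UP momentW_all
  set e0 : ℝ := min (1 / 12) (1 / (7 * c)) with he0
  have e1 : 0 < e0 := lt_min (by norm_num) (by positivity)
  refine ⟨e0 * min 1 (1 / (8 * A)), by positivity, fun m J hJ κ κ0 κ1 hκ => ?_⟩
  rcases κ0.eq_or_lt with rfl | κ0
  · exact ⟨0, fun γ ψ S _ => by simp⟩
  obtain ⟨N, hN⟩ := loc hc hA hUP hJ hκ (e := e0 * κ ^ 2) (by positivity)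
    (by nlinarith [min_le_left (1 / 12 : ℝ) (1 / (7 * c)), mul_pos κ0 κ0])
    ((mul_le_mul_of_nonneg_right (min_le_right _ _) (sq_nonneg κ)).trans_eq (by ring))
  refine ⟨N, fun γ ψ S hS => ?_⟩
  have w0 := wt_nonneg fun q hq => (hS q hq).2.1
  have m0 : 0 ≤ min 1 (wt ψ S) := le_min zero_le_one w0
  have hf := fin_of (Set.inter_subset_right.trans (EJ_sub hJ) : US γ ψ S ∩ EJ m J ⊆ _)
  refine le_of_forall_gt_imp_ge_of_dense fun β hβ => ?_
  have β0 : 0 < β := measureReal_nonneg.trans_lt hβ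
  have k0 : 0 < e0 * κ ^ 2 := by positivity
  by_cases h : β ≤ e0 * κ ^ 2
  · have h1 := hN γ ψ S hS β β0 h ((ENNReal.le_ofReal_iff_toReal_le hf β0.le).2 hβ.le)
    calc e0 * min 1 (1 / (8 * A)) * κ ^ 2 * min 1 (wt ψ S)
        ≤ e0 * (1 / (8 * A)) * κ ^ 2 * (2 * (A / (e0 * κ ^ 2) * (4 * β))) := by
          gcongr
          · exact min_le_right _ _
          · exact (min_le_right _ _).trans h1
      _ = β := by field_simp; ring
  · refine le_trans ?_ (not_le.1 h).le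
    calc e0 * min 1 (1 / (8 * A)) * κ ^ 2 * min 1 (wt ψ S) ≤ e0 * 1 * κ ^ 2 * 1 := by
          gcongr <;> exact min_le_left _ _
      _ = _ := by ring

theorem single {q : ℕ} (hq : q ∈ S) (q0 : 0 < q) (h1 : ψ q ≤ 1 / 2) :
    ψ q / q ≤ volume.real (US γ ψ S ∩ Set.Icc 0 1) := by
  have hqR : (1 : ℝ) ≤ q := by exact_mod_cast q0
  have hq0 : (0 : ℝ) < q := by linarith
  have t1 : ψ q / q ≤ 1 / 2 := by
    rw [div_le_iff₀ hq0]
    linarith
  have z0 : 0 ≤ Int.fract γ / q := div_nonneg (Int.fract_nonneg _) hq0.le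
  have z1 : Int.fract γ / q ≤ 1 := div_le_one_of_le₀ ((Int.fract_lt_one _).le.trans hqR) hq0.le
  have key : ∀ x, |x - Int.fract γ / q| < ψ q / q → x ∈ US γ ψ S := fun x hx => by
    refine ⟨q, hq, -⌊γ⌋, ?_⟩
    rw [lt_div_iff₀ hq0, ← abs_of_pos hq0, ← abs_mul, abs_of_pos hq0] at hx
    refine lt_of_eq_of_lt (congrArg _ ?_) hx
    rw [Int.fract]
    push_cast
    field_simp
    ring
  generalize Int.fract γ / q = z at *
  generalize ψ q / q = t at *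
  have fin : ∀ u, 0 ≤ u → u + t ≤ 1 → z - t ≤ u → u ≤ z →
      t ≤ volume.real (US γ ψ S ∩ Set.Icc 0 1) := fun u u0 u1 u2 u3 => by
    refine le_trans ?_ (measureReal_mono (s₁ := Set.Ioo u (u + t)) (fun x hx =>
      ⟨key x (abs_lt.2 ⟨by linarith [hx.1], by linarith [hx.2]⟩), by linarith [hx.1],
        by linarith [hx.2]⟩) (fin_of Set.inter_subset_right))
    rw [Real.volume_real_Ioo, add_sub_cancel_left]
    exact le_max_left _ _
  rcases le_total t 0 with t0 | t0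
  · exact t0.trans measureReal_nonneg
  rcases le_total z (1 / 2) with h | h
  · exact fin z z0 (by linarith) (by linarith) le_rfl
  · exact fin (z - t) (by linarith) (by linarith) le_rfl (by linarith)

/-- the reverse union bound -/
theorem global : ∃ c : ℝ, 0 < c ∧ ∀ (γ : ℝ) (ψ : ℕ → ℝ) (S : Finset ℕ),
    (∀ q ∈ S, 0 < q ∧ 0 ≤ ψ q ∧ ψ q ≤ 1 / 2) →
    c * min 1 (wt ψ S) ≤ volume.real (US γ ψ S ∩ Set.Icc 0 1) := by
  obtain ⟨c, hc, h⟩ := cells
  obtain ⟨N, hN⟩ := h 0 {0} (by simp) 1 zero_le_one le_rfl (by simp)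
  have hd : 0 < 1 / c + (N : ℝ) ^ 2 := by positivity
  refine ⟨1 / (1 / c + N ^ 2), by positivity, fun γ ψ S hS => ?_⟩
  have h1 := (hN γ ψ (S.filter fun q => N ≤ q) fun q hq =>
    ⟨(mem_filter.1 hq).2, (hS q (mem_filter.1 hq).1).2⟩).trans (measureReal_mono
      (s₂ := US γ ψ S ∩ Set.Icc 0 1) (fun x ⟨⟨q, hq, h⟩, hx⟩ =>
        ⟨⟨q, (mem_filter.1 hq).1, h⟩, EJ_sub (by simp) hx⟩) (fin_of Set.inter_subset_right))
  set V := volume.real (US γ ψ S ∩ Set.Icc 0 1) with hV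
  have V0 : 0 ≤ V := measureReal_nonneg
  have h2 : wt ψ (S.filter fun q => ¬ N ≤ q) ≤ N ^ 2 * V := by
    refine (sum_le_card_nsmul _ _ (N * V) fun q hq => ?_).trans ?_
    · obtain ⟨a1, a2⟩ := mem_filter.1 hq
      have a3 := single (γ := γ) a1 (hS q a1).1 (hS q a1).2.2
      rw [div_le_iff₀ (by exact_mod_cast (hS q a1).1), mul_comm] at a3
      refine (term_le (hS q a1).2.1).trans (a3.trans (mul_le_mul_of_nonneg_right ?_ V0))
      exact_mod_cast (not_le.1 a2).le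
    · have : ((S.filter fun q => ¬ N ≤ q).card : ℝ) ≤ N := by
        exact_mod_cast (card_le_card (t := range N) fun q hq =>
          mem_range.2 (not_le.1 (mem_filter.1 hq).2)).trans_eq (card_range N)
      rw [nsmul_eq_mul, sq, mul_assoc]
      gcongr
  have h3 : wt ψ (S.filter fun q => N ≤ q) + wt ψ (S.filter fun q => ¬ N ≤ q) = wt ψ S :=
    sum_filter_add_sum_filter_not _ _ _
  have h4 := wt_nonneg (ψ := ψ) (S := S.filter fun q => ¬ N ≤ q)
    fun q hq => (hS q (mem_filter.1 hq).1).2.1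
  have h5 : min 1 (wt ψ (S.filter fun q => N ≤ q)) ≤ 1 / c * V := by
    rw [one_div_mul_eq_div, le_div_iff₀ hc]
    linarith
  rw [one_div_mul_eq_div, div_le_iff₀ hd, ← h3]
  rcases min_le_iff.1 h5 with h | h
  · exact (min_le_left _ _).trans (by nlinarith)
  · exact (min_le_right _ _).trans (by linarith)

/-- inside a measurable set -/
theorem inside : ∃ c : ℝ, 0 < c ∧ ∀ K ⊆ Set.Icc (0 : ℝ) 1, MeasurableSet K → ∀ ε : ℝ, 0 < ε →
    ∃ N : ℕ, ∀ (γ : ℝ) (ψ : ℕ → ℝ) (S : Finset ℕ), (∀ q ∈ S, N ≤ q ∧ 0 ≤ ψ q ∧ ψ q ≤ 1 / 2) →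
      c * volume.real K ^ 2 * min 1 (wt ψ S) ≤ volume.real (US γ ψ S ∩ K) + ε := by
  obtain ⟨c, hc, h⟩ := cells
  refine ⟨c / 4, by positivity, fun K hK hm ε hε => ?_⟩
  have hf := fin_of hK
  rcases (measureReal_nonneg (μ := volume) (s := K)).eq_or_lt with h0 | h0
  · exact ⟨0, fun γ ψ S _ => by rw [← h0]; simpa using by positivity⟩
  obtain ⟨K', k1, k2, k3⟩ := hm.exists_lt_isCompact_of_ne_top hf
    (r := ENNReal.ofReal (volume.real K / 2))
    ((ENNReal.ofReal_lt_iff_lt_toReal (by positivity) hf).2 (half_lt_self h0))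
  obtain ⟨m, J, hJ, j1, j2⟩ := exists_grid k2 (k1.trans hK) hε
  have k4 : volume.real K / 2 ≤ volume.real K' :=
    ((ENNReal.ofReal_lt_iff_lt_toReal (by positivity) k2.measure_ne_top).1 k3).le
  have k5 : volume.real K ≤ 1 := (measureReal_mono hK (by simp)).trans (by simp)
  obtain ⟨N, hN⟩ := h m J hJ (volume.real K / 2) (by positivity) (by linarith) (k4.trans j1)
  refine ⟨N, fun γ ψ S hS => le_trans (le_of_eq (by ring)) ((hN γ ψ S hS).trans ?_)⟩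
  refine (measureReal_mono (s₂ := US γ ψ S ∩ K ∪ (⋃ j ∈ J, cell m j) \ K') (fun x hx => ?_)
    (measure_union_lt_top (fin_of (Set.inter_subset_right.trans hK)).lt_top
      (j2.trans_lt ENNReal.ofReal_lt_top)).ne).trans ((measureReal_union_le _ _).trans
        (add_le_add le_rfl (ENNReal.toReal_le_of_le_ofReal hε.le j2)))
  by_cases h1 : x ∈ K'
  · exact Or.inl ⟨hx.1, k1 h1⟩
  · exact Or.inr ⟨hx.2, h1⟩

end Vale.Agent.N028Y
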