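import Vale.Agent.P028.MathlibUsed
import Vale.Agent.N028Y.Main

/-!
# The counting function
-/

namespace Vale.Agent.N028Y

open Finset MeasureTheory Filter Vale.Agent.N028

theorem blocks {w v : ℕ → ℝ} {d : ℝ} (d0 : 0 ≤ d) {M : ℕ} (hw : ∀ q, w q ≤ 1 / 2)
    (hv : ∀ q, 0 ≤ v q)
    (h : ∀ a b, M ≤ a → 1 ≤ ∑ q ∈ Ioc a b, w q → d ≤ ∑ q ∈ Ioc a b, v q) (n : ℕ) :
    ∀ a b, b ≤ a + n → M ≤ a → 2 / 3 * d * (∑ q ∈ Ioc a b, w q - 1) ≤ ∑ q ∈ Ioc a b, v q := by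
  induction n with
  | zero => intro a b hb _; rw [Ioc_eq_empty_of_le (show b ≤ a from hb)]; simpa using d0
  | succ n ih =>
    intro a b hb ha
    by_cases h1 : 1 ≤ ∑ q ∈ Ioc a b, w q
    · have hex : ∃ t, 1 ≤ ∑ q ∈ Ioc a t, w q := ⟨b, h1⟩
      have h2 := Nat.find_spec hex
      have h3 : Nat.find hex ≤ b := Nat.find_min' hex h1
      have h4 := fun m => Nat.find_min hex (m := m)
      generalize Nat.find hex = t at h2 h3 h4
      have h5 : a < t := by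
        by_contra hc
        rw [Ioc_eq_empty_of_le (not_lt.1 hc)] at h2
        norm_num at h2
      obtain ⟨t, rfl⟩ : ∃ s, t = s + 1 := ⟨t - 1, by omega⟩
      have h6 := not_le.1 (h4 t (by omega))
      have h7 := ih (t + 1) b (by omega) (by omega)
      have h8 := h a (t + 1) ha h2
      rw [← sum_Ioc_consecutive w h5.le h3, ← sum_Ioc_consecutive v h5.le h3]
      rw [sum_Ioc_succ_top (by omega)] at h2 ⊢
      nlinarith [hw (t + 1)]
    · exact le_trans (by nlinarith) (sum_nonneg fun q _ => hv q)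

/-- the counting function -/
noncomputable def cnt (γ : ℝ) (ψ : ℕ → ℝ) (Q : ℕ) (x : ℝ) : ℝ :=
  ({q : ℕ | 0 < q ∧ q ≤ Q ∧ ∃ a : ℤ, |(q : ℝ) * x - a - γ| < ψ q}.ncard : ℝ)

open Classical in
theorem cnt_eq (γ : ℝ) (ψ : ℕ → ℝ) (Q : ℕ) :
    cnt γ ψ Q = fun x => ∑ q ∈ Ioc 0 Q, (US γ ψ {q}).indicator 1 x := by
  funext x
  have e : {q : ℕ | 0 < q ∧ q ≤ Q ∧ ∃ a : ℤ, |(q : ℝ) * x - a - γ| < ψ q} =
      ↑((Ioc 0 Q).filter fun q => x ∈ US γ ψ {q}) := by
    ext q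
    simp [US, and_assoc]
  rw [cnt, e, Set.ncard_coe_finset, card_filter]
  simp [Set.indicator_apply]

/-- the mean of the counting function over a measurable set -/
theorem mean : ∃ c : ℝ, 0 < c ∧ ∀ K ⊆ Set.Icc (0 : ℝ) 1, MeasurableSet K → ∃ B : ℝ,
    ∀ (γ : ℝ) (ψ : ℕ → ℝ), (∀ q, 0 ≤ ψ q ∧ ψ q ≤ 1 / 2) → ∀ Q : ℕ,
      c * volume.real K ^ 2 * wt ψ (Ioc 0 Q) - B ≤ ∫ x in K, cnt γ ψ Q x := by
  obtain ⟨c, hc, h⟩ := inside
  refine ⟨c / 3, by positivity, fun K hK hm => ?_⟩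
  have hf : IsFiniteMeasure (volume.restrict K) := isFiniteMeasure_restrict.2 (fin_of hK)
  have hI : ∀ γ ψ Q, ∫ x in K, cnt γ ψ Q x = ∑ q ∈ Ioc 0 Q, volume.real (US γ ψ {q} ∩ K) := by
    intro γ ψ Q
    rw [cnt_eq, integral_finsetSum _ fun q _ =>
      (integrable_const 1).indicator (isOpen_US γ ψ _).measurableSet]
    exact sum_congr rfl fun q _ => by
      rw [integral_indicator_one (isOpen_US γ ψ _).measurableSet,
        measureReal_restrict_apply (isOpen_US γ ψ _).measurableSet]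
  simp only [hI]
  rcases (measureReal_nonneg (μ := volume) (s := K)).eq_or_lt with h0 | h0
  · exact ⟨0, fun γ ψ _ Q => by rw [← h0]; simpa using by positivity⟩
  set d := c * volume.real K ^ 2 with hd
  have d0 : 0 < d := by positivity
  obtain ⟨N, hN⟩ := h K hK hm (d / 2) (by positivity)
  refine ⟨d / 3 * (N + 1), fun γ ψ hψ Q => ?_⟩
  have hw : ∀ q, ((q.totient : ℝ) / q) * ψ q ≤ 1 / 2 := fun q => (term_le (hψ q).1).trans (hψ q).2
  have h1 := blocks (v := fun q => volume.real (US γ ψ {q} ∩ K)) (half_pos d0).le (M := N) hw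
    (fun q => measureReal_nonneg) (fun a b ha h1 => by
      have h2 := hN γ ψ (Ioc a b) fun q hq => ⟨ha.trans (mem_Ioc.1 hq).1.le, hψ q⟩
      rw [wt, min_eq_left h1] at h2
      have h3 := (measureReal_mono (s₁ := US γ ψ (Ioc a b) ∩ K)
        (s₂ := ⋃ q ∈ Ioc a b, US γ ψ {q} ∩ K) (fun x ⟨⟨q, hq, h⟩, hx⟩ =>
          Set.mem_biUnion hq ⟨⟨q, mem_singleton_self q, h⟩, hx⟩) (fin_of (Set.iUnion₂_subset
            fun q _ => Set.inter_subset_right.trans hK))).trans (measureReal_biUnion_finset_le _ _)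
      linarith) Q N Q (by omega) le_rfl
  have h2 : wt ψ (Ioc 0 Q) ≤ N + wt ψ (Ioc N Q) := by
    have h3 : wt ψ (Ioc 0 N) ≤ N := (sum_le_card_nsmul _ _ 1 fun q _ =>
      (hw q).trans (by norm_num)).trans (by simp)
    refine le_trans ?_ (add_le_add h3 le_rfl)
    rw [wt, wt, wt, ← sum_union (Ioc_disjoint_Ioc_of_le le_rfl)]
    refine sum_le_sum_of_subset_of_nonneg (fun q hq => ?_) fun q _ _ =>
      mul_nonneg (by positivity) (hψ q).1
    simp only [mem_union, mem_Ioc] at hq ⊢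
    omega
  refine le_trans ?_ (h1.trans (sum_le_sum_of_subset_of_nonneg (Ioc_subset_Ioc_left N.zero_le)
    fun q _ _ => measureReal_nonneg))
  rw [wt, wt] at h2
  rw [wt, div_mul_eq_mul_div, ← hd]
  nlinarith

theorem count : ∃ C : ℝ, 0 < C ∧ ∀ (γ : ℝ) (ψ : ℕ → ℝ), (∀ q, 0 ≤ ψ q ∧ ψ q ≤ 1 / 2) →
    ¬ Summable (fun q : ℕ => ((q.totient : ℝ) / q) * ψ q) → ∀ Q : ℕ → ℕ, Tendsto Q atTop atTop →
    ∀ η : ℝ, 0 < η → volume {x ∈ Set.Icc (0 : ℝ) 1 | ∀ᶠ i in atTop,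
      cnt γ ψ (Q i) x ≤ η * wt ψ (Ioc 0 (Q i))} ≤ ENNReal.ofReal (C * η) := by
  obtain ⟨c, hc, h⟩ := mean
  refine ⟨1 / c, by positivity, fun γ ψ hψ hs Q hQ η hη => ?_⟩
  set K : ℕ → Set ℝ := fun n => {x ∈ Set.Icc (0 : ℝ) 1 | ∀ i, n ≤ i →
    cnt γ ψ (Q i) x ≤ η * wt ψ (Ioc 0 (Q i))} with hK
  have hmono : Monotone K := fun m n hmn x hx => ⟨hx.1, fun i hi => hx.2 i (hmn.trans hi)⟩
  have hc' : ∀ Q, Measurable (cnt γ ψ Q) := fun Q => by
    rw [cnt_eq]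
    exact measurable_sum _ fun q _ => measurable_one.indicator (isOpen_US γ ψ _).measurableSet
  have hW : Tendsto (fun i => wt ψ (Ioc 0 (Q i))) atTop atTop := by
    have h1 := ((not_summable_iff_tendsto_nat_atTop_of_nonneg fun q =>
      mul_nonneg (by positivity) (hψ q).1).1 hs).comp ((tendsto_add_atTop_nat 1).comp hQ)
    refine h1.congr fun i => ?_
    simp only [Function.comp, wt]
    rw [range_eq_Ico, Ico_add_one_right_eq_Icc, ← Ioc_insert_left (Q i).zero_le, sum_insert] <;>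
      simp
  refine (measure_mono (t := ⋃ n, K n) fun x hx => ?_).trans ?_
  · obtain ⟨n, hn⟩ := eventually_atTop.1 hx.2
    exact Set.mem_iUnion.2 ⟨n, hx.1, hn⟩
  rw [hmono.measure_iUnion]
  refine iSup_le fun n => ?_
  have k1 : K n ⊆ Set.Icc 0 1 := fun x hx => hx.1
  have k2 : MeasurableSet (K n) := by
    convert (measurableSet_Icc (a := (0 : ℝ)) (b := 1)).inter (MeasurableSet.iInter fun i =>
      MeasurableSet.iInter fun _ : n ≤ i => measurableSet_le (hc' (Q i))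
        (measurable_const (a := η * wt ψ (Ioc 0 (Q i)))))
    ext x
    simp [hK]
  obtain ⟨B, hB⟩ := h (K n) k1 k2
  rw [ENNReal.le_ofReal_iff_toReal_le (fin_of k1) (by positivity)]
  by_contra hlt
  have k3 : 1 / c * η < volume.real (K n) := not_le.1 hlt
  have k4 : 0 < volume.real (K n) := lt_trans (by positivity) k3
  rw [one_div_mul_eq_div, div_lt_iff₀ hc] at k3
  have k5 : 0 < volume.real (K n) * (volume.real (K n) * c - η) := mul_pos k4 (sub_pos.2 k3)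
  obtain ⟨i, i1, i2⟩ := ((eventually_ge_atTop n).and
    ((hW.const_mul_atTop k5).eventually_gt_atTop B)).exists
  have hf : IsFiniteMeasure (volume.restrict (K n)) := isFiniteMeasure_restrict.2 (fin_of k1)
  have k6 : ∫ x in K n, cnt γ ψ (Q i) x ≤ ∫ _ in K n, η * wt ψ (Ioc 0 (Q i)) :=
    setIntegral_mono_on (by
      rw [cnt_eq]
      exact integrable_finsetSum _ fun q _ =>
        (integrable_const 1).indicator (isOpen_US γ ψ _).measurableSet)
      (integrable_const _) k2 fun x hx => hx.2 i i1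
  rw [setIntegral_const, smul_eq_mul] at k6
  linarith [hB γ ψ hψ (Q i)]

theorem count_ae (γ : ℝ) (ψ : ℕ → ℝ) (hψ : ∀ q, 0 ≤ ψ q ∧ ψ q ≤ 1 / 2)
    (hs : ¬ Summable (fun q : ℕ => ((q.totient : ℝ) / q) * ψ q)) (Q : ℕ → ℕ)
    (hQ : Tendsto Q atTop atTop) : ∀ᵐ x : ℝ, ∃ δ : ℝ, 0 < δ ∧ ∃ᶠ i in atTop,
      δ * wt ψ (Ioc 0 (Q i)) ≤ cnt γ ψ (Q i) x := by
  obtain ⟨C, hC, h⟩ := count
  refine null_of_periodic (fun x n hx hx' => hx ?_) ?_
  · have e : ∀ Q, cnt γ ψ Q (x + n) = cnt γ ψ Q x := fun Q => by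
      unfold cnt
      congr 2
      ext q
      refine and_congr_right fun _ => and_congr_right fun _ => ⟨fun ⟨a, ha⟩ => ⟨a - q * n, ?_⟩,
        fun ⟨a, ha⟩ => ⟨a + q * n, ?_⟩⟩ <;> convert ha using 2 <;> push_cast <;> ring
    simpa only [Set.mem_ofPred_eq, e] using hx'
  refine nonpos_iff_eq_zero.1 (ENNReal.le_of_forall_pos_le_add fun ε hε _ => ?_)
  have h1 := h γ ψ hψ hs Q hQ (ε / C) (by positivity)
  rw [mul_div_cancel₀ _ hC.ne', ENNReal.ofReal_coe_nnreal] at h1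
  rw [zero_add]
  refine le_trans (measure_mono fun x hx => ?_) h1
  refine ⟨hx.2, ?_⟩
  by_contra h2
  exact hx.1 ⟨ε / C, by positivity, (not_eventually.1 h2).mono fun i hi => (not_le.1 hi).le⟩

end Vale.Agent.N028Y
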