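import Vale.Agent.P028.MathlibUsed
import Vale.Agent.N028Y.Count

/-! Not a hand-in (departures/helper89.md). -/

namespace Vale.Agent.N028Y.Quantitative

open MeasureTheory Filter

/-- **The weak inhomogeneous Duffin-Schaeffer conjecture (1) and quantitative forms with constants
uniform in the shift: finite unions of arcs (2), (3), and the number of solutions (4), (5).** -/
theorem quantitative :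
    (∀ γ : ℝ, ∀ ψ : ℕ → ℝ, (∀ q, 0 ≤ ψ q) →
      ¬ Summable (fun q : ℕ => ((Nat.totient q : ℝ) / q) * ψ q) →
      volume {x : ℝ | {q : ℕ | 0 < q ∧ ∃ a : ℤ, |q * x - a - γ| < ψ q}.Infinite}ᶜ = 0) ∧
    (∃ c : ℝ, 0 < c ∧ ∀ (γ : ℝ) (ψ : ℕ → ℝ) (S : Finset ℕ),
      (∀ q ∈ S, 0 < q ∧ 0 ≤ ψ q ∧ ψ q ≤ 1 / 2) →
      c * min 1 (∑ q ∈ S, ((Nat.totient q : ℝ) / q) * ψ q) ≤
        volume.real ({x : ℝ | ∃ q ∈ S, ∃ a : ℤ, |q * x - a - γ| < ψ q} ∩ Set.Icc 0 1)) ∧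
    (∃ c : ℝ, 0 < c ∧ ∀ K ⊆ Set.Icc (0 : ℝ) 1, MeasurableSet K → ∀ ε : ℝ, 0 < ε →
      ∃ N : ℕ, ∀ (γ : ℝ) (ψ : ℕ → ℝ) (S : Finset ℕ),
        (∀ q ∈ S, N ≤ q ∧ 0 ≤ ψ q ∧ ψ q ≤ 1 / 2) →
        c * volume.real K ^ 2 * min 1 (∑ q ∈ S, ((Nat.totient q : ℝ) / q) * ψ q) ≤
          volume.real ({x : ℝ | ∃ q ∈ S, ∃ a : ℤ, |q * x - a - γ| < ψ q} ∩ K) + ε) ∧
    (∃ c : ℝ, 0 < c ∧ ∀ K ⊆ Set.Icc (0 : ℝ) 1, MeasurableSet K → ∃ B : ℝ,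
      ∀ (γ : ℝ) (ψ : ℕ → ℝ), (∀ q, 0 ≤ ψ q ∧ ψ q ≤ 1 / 2) → ∀ Q : ℕ,
        c * volume.real K ^ 2 * (∑ q ∈ Finset.Ioc 0 Q, ((Nat.totient q : ℝ) / q) * ψ q) - B ≤
          ∫ x in K, ({q : ℕ | 0 < q ∧ q ≤ Q ∧ ∃ a : ℤ, |q * x - a - γ| < ψ q}.ncard : ℝ)) ∧
    (∃ C : ℝ, 0 < C ∧ ∀ (γ : ℝ) (ψ : ℕ → ℝ), (∀ q, 0 ≤ ψ q ∧ ψ q ≤ 1 / 2) →
      ¬ Summable (fun q : ℕ => ((Nat.totient q : ℝ) / q) * ψ q) →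
      ∀ Q : ℕ → ℕ, Tendsto Q atTop atTop →
        (∀ η : ℝ, 0 < η → volume {x ∈ Set.Icc (0 : ℝ) 1 | ∀ᶠ i in atTop,
          ({q : ℕ | 0 < q ∧ q ≤ Q i ∧ ∃ a : ℤ, |q * x - a - γ| < ψ q}.ncard : ℝ) ≤
            η * ∑ q ∈ Finset.Ioc 0 (Q i), ((Nat.totient q : ℝ) / q) * ψ q} ≤
              ENNReal.ofReal (C * η)) ∧
        ∀ᵐ x : ℝ, ∃ δ : ℝ, 0 < δ ∧ ∃ᶠ i in atTop,
          δ * ∑ q ∈ Finset.Ioc 0 (Q i), ((Nat.totient q : ℝ) / q) * ψ q ≤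
            ({q : ℕ | 0 < q ∧ q ≤ Q i ∧ ∃ a : ℤ, |q * x - a - γ| < ψ q}.ncard : ℝ)) :=
  ⟨fun γ ψ hψ h => measure_mono_null (Set.compl_subset_compl.2 fun x hx => Set.Infinite.mono
      (fun q hq => ⟨hq.1, round (q * x - γ), by rw [sub_right_comm]; exact hq.2⟩) hx)
      (Vale.P028.SK.q1_full γ ψ hψ h),
    Vale.Agent.N028Y.global, Vale.Agent.N028Y.inside, Vale.Agent.N028Y.mean,
    let ⟨C, hC, h⟩ := Vale.Agent.N028Y.count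
    ⟨C, hC, fun γ ψ hψ hs Q hQ =>
      ⟨h γ ψ hψ hs Q hQ, Vale.Agent.N028Y.count_ae γ ψ hψ hs Q hQ⟩⟩⟩

end Vale.Agent.N028Y.Quantitative
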